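import Vale.Agent.P144U.Free.Lat
import Vale.Agent.N144.DefsL
import Vale.Agent.N144.DefsS

/-!
The bound on the even spin correlations at all scales, on the lattice.
-/

namespace Vale.Agent.N144.Lat

open Finset Matrix Vale.Agent.P144 Vale.Agent.P144Z UL

section

variable {M : ℕ} [NeZero M]

/-- The pure gauge of the signs `s`. -/
def dg (s : Tor M → ℝ) : Gauge M := fun e => s e.1 * s (e.1 + uv M e.2)

omit [NeZero M] in
theorem dg_sign {s : Tor M → ℝ} (hs : IsSign s) : IsSign (dg s) := fun _ =>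
  G.sign_mul (hs _) (hs _)

omit [NeZero M] in
theorem flux_dg {s : Tor M → ℝ} (hs : IsSign s) (f : Tor M) : flux (dg s) f = 1 := by
  have e : f + uv M 1 + uv M 0 = f + uv M 0 + uv M 1 := add_right_comm _ _ _
  have h1 := G.sign_sq hs f
  have h2 := G.sign_sq hs (f + uv M 0)
  have h3 := G.sign_sq hs (f + uv M 1)
  have h4 := G.sign_sq hs (f + uv M 0 + uv M 1)
  simp only [flux, dg, e]
  calc _ = (s f * s f) * (s (f + uv M 0) * s (f + uv M 0)) * (s (f + uv M 1) * s (f + uv M 1)) *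
        (s (f + uv M 0 + uv M 1) * s (f + uv M 0 + uv M 1)) := by ring
    _ = 1 := by rw [h1, h2, h3, h4]; norm_num

theorem ZwC_dg {s : Tor M → ℝ} (hs : IsSign s) (q : Par) (u : Cor M) (A : Gauge M)
    (Φ : (Tor M × Fin 2 → Bool) → ℝ) : ZwC q u (A * dg s) Φ = ZwC q u A Φ := by
  refine sum_congr rfl fun n _ => ?_
  have h := I1.cw_gauge s hs n
  have h1 : P144Z.wt (dg s) 1 n = ∏ e, if n e then s e.1 * s (e.1 + uv M e.2) else 1 := by
    unfold P144Z.wt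
    simp only [one_mul, dg]
  rw [mul_comm A, I1.wt_mul, h1, ← mul_assoc, mul_comm (cw n), h]

theorem Zw_dg {s : Tor M → ℝ} (hs : IsSign s) (q : Par) (A : Gauge M)
    (Φ : (Tor M × Fin 2 → Bool) → ℝ) : Zw q (A * dg s) Φ = Zw q A Φ := by
  rw [← ZwC_zero, ← ZwC_zero, ZwC_dg hs]

/-- A field that is flat in a square is gauge equivalent to one that is trivial there. -/
theorem fix {A : Gauge M} (hA : IsSign A) {z : Tor M} {ρ : ℕ} (hM : 2 * (ρ + 1) + 3 ≤ M)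
    (hF : Flat A z (ρ + 1)) : ∃ s : Tor M → ℝ, IsSign s ∧
      (∀ e, tdist e.1 z ≤ ρ → (A * dg s) e = 1) ∧ ∀ e, ρ + 2 < tdist e.1 z → dg s e = 1 := by
  refine ⟨fun y => if tdist y z ≤ ρ + 1 then trans A z y else 1, fun y => ?_, fun e he => ?_,
    fun e he => ?_⟩
  · dsimp only
    split_ifs
    · exact trans_sign hA z y
    · exact Or.inl rfl
  · have h1 : tdist (e.1 + uv M e.2) z ≤ ρ + 1 := (E3.near_add e.2).trans (by omega)
    have h2 : tdist e.1 z ≤ ρ + 1 := by omega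
    have h3 := trans_gauge hA hM hF h2 h1
    have h4 := G.sign_sq hA e
    have h5 := G.sign_sq (trans_sign hA z) e.1
    simp only [Pi.mul_apply, dg, if_pos h1, if_pos h2, h3]
    calc _ = (A e * A e) * (trans A z e.1 * trans A z e.1) := by ring
      _ = 1 := by rw [h4, h5, one_mul]
  · have h1 := E1.near_add' e.1 z e.2
    simp only [dg]
    rw [if_neg (by omega), if_neg (by omega), one_mul]

omit [NeZero M] in
theorem str_dg {P B : Gauge M} {r : ℕ} (h : Str P B r) {s : Tor M → ℝ} (hs : IsSign s) :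
    Str P (B * dg s) r := by
  have e : ∀ f, flux (B * dg s) f = flux B f := fun f => by
    have := flux_dg hs f
    unfold flux at this ⊢
    simp only [Pi.mul_apply]
    linear_combination (B (f, 0) * B (f + uv M 0, 1) * B (f + uv M 1, 0) * B (f, 1)) * this
  exact ⟨fun e => G.sign_mul (h.sign e) (dg_sign hs e), fun f hf => h.fl f (e f ▸ hf),
    fun f f' h1 h2 => h.sep f f' (e f ▸ h1) (e f' ▸ h2)⟩

/-- The string from `c` to a point near `c` stays near `c`. -/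
theorem strG_far {c b : Site} {R : ℕ} (hb : zd b c ≤ R) {e : Tor M × Fin 2}
    (he : R + 1 < tdist e.1 (prj M c)) : strG M c b e = 1 := by
  unfold zd at hb
  simp only [max_le_iff] at hb
  unfold strG
  rw [Finset.prod_eq_one, Finset.prod_eq_one, one_mul]
  · intro i hi
    rw [if_neg]
    rintro rfl
    have h := he.trans_le (tdist_prj_le (M := M) ((b.1, i) + uz 1) c)
    simp only [uz, mem_Ico] at h hi
    simp at h
    omega
  · intro i hi
    rw [if_neg]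
    rintro rfl
    have h := he.trans_le (tdist_prj_le (M := M) ((i, c.2) + uz 0) c)
    simp only [uz, mem_Ico] at h hi
    simp at h
    omega

theorem flux_spinG {n : ℕ} (hn : Even n) (c : Site) (x : Fin n → Site) (f : Tor M) :
    flux (spinG M c x) f = ∏ i, DC.sg f (x i) := by
  have h1 : DC.sg f c ^ n = 1 := by
    unfold DC.sg
    split_ifs
    · exact hn.neg_one_pow
    · exact one_pow n
  rw [spinG, DC.flux_prod]
  simp only [DC.flux_strG]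
  rw [prod_mul_distrib, prod_const, card_univ, Fintype.card_fin, h1, one_mul]

theorem ends_spinG {n : ℕ} (hn : Even n) {c : Site} {x : Fin n → Site} {f : Tor M}
    (h : flux (spinG M c x) f = -1) : ∃ i, f = prj M (x i) := by
  by_contra h'
  simp only [not_exists, eq_comm (a := f)] at h'
  rw [flux_spinG hn] at h
  simp only [DC.sg, h', if_false, prod_const_one] at h
  norm_num at h

/-- The strings of an even number of spins near `c` form a cluster. -/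
theorem cluster {n : ℕ} (hn : Even n) {c : Site} {x : Fin n → Site} {R r T : ℕ}
    (hT : ∀ i, zd (x i) 0 ≤ T) (hM : 4 * T < M) (h1 : ∀ i, zd (x i) c + 1 ≤ R)
    (h2 : ∀ i j, i ≠ j → r < zd (x i) (x j)) :
    Cluster (spinG M c x) 1 (prj M c) R r ∧ (∀ i, flux (spinG M c x) (prj M (x i)) = -1) ∧
      (univ.filter fun f => flux (spinG M c x) f = -1).card ≤ n := by
  have k : ∀ i j, i ≠ j → r < tdist (prj M (x i)) (prj M (x j)) := fun i j h => by
    rw [H3.tdist_prj (hT i) (hT j) hM]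
    exact h2 i j h
  refine ⟨⟨spinG_sign c x, fun _ => Or.inl rfl, fun f => by simp [flux], fun e he => ?_,
    fun f hf => ?_, fun f f' hf hf' h => ?_⟩, fun i => ?_, ?_⟩
  · rw [spinG, Finset.prod_apply]
    exact prod_eq_one fun i _ => strG_far le_rfl (by have := h1 i; omega)
  · obtain ⟨i, rfl⟩ := ends_spinG hn hf
    exact (tdist_prj_le (x i) c).trans (by have := h1 i; unfold zd at this; omega)
  · obtain ⟨i, rfl⟩ := ends_spinG hn hf
    obtain ⟨j, rfl⟩ := ends_spinG hn hf'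
    exact k i j fun e => h (by rw [e])
  · have h3 : ∀ j, j ≠ i → DC.sg (prj M (x i)) (x j) = 1 := fun j hj => if_neg fun e => by
      have := k i j hj.symm
      rw [e, tdist_self] at this
      omega
    rw [flux_spinG hn, prod_eq_single i (fun j _ hj => h3 j hj) (by simp)]
    simp [DC.sg]
  · have h3 : (univ.filter fun f => flux (spinG M c x) f = -1) ⊆
        univ.image fun i => prj M (x i) := fun f hf => by
      obtain ⟨i, rfl⟩ := ends_spinG hn (mem_filter.1 hf).2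
      exact mem_image_of_mem _ (mem_univ i)
    exact (card_le_card h3).trans (card_image_le.trans (by simp))

theorem Gap.mono {A : Gauge M} {x y : ℝ} (h : Gap A x) (hx : 0 ≤ x) (hy : x ≤ y) : Gap A y :=
  fun φ => (h φ).trans (mul_le_mul_of_nonneg_right (pow_le_pow_left₀ hx hy 2) 
    (sum_nonneg fun _ _ => mul_self_nonneg _))

end

/-- The gap of a region with strings that have no flux inside. -/
theorem gap_reg (hG : GapW) (N Λ₀ : ℕ) : ∃ Γ : ℝ, 1 ≤ Γ ∧ ∃ r₀ : ℕ, ∀ (M : ℕ) [NeZero M]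
    (R : Reg M) (B : Gauge M) (T r : ℕ), Rgh R.In N r → Str R.pw B r →
    (∀ f ∈ R.In, tdist f 0 ≤ T) → (∀ e, T < tdist e.1 0 → B e = 1) → r₀ ≤ r → r ≤ T →
    T ≤ Λ₀ * r → 32 * T ≤ M → (R.fr = true → ∀ f, flux B f ≠ -1) → Gap (R.pw * B) (Γ * T) := by
  obtain ⟨Γ, hΓ, r₀, h⟩ := hG N Λ₀
  refine ⟨Γ, hΓ, r₀, fun M _ R B T r h1 h2 h3 h4 h5 h6 h7 h8 h9 φ => ?_⟩
  have := h M R B T r h1 h2 h3 h4 h5 h6 h7 h8 φ 0 (fun e f hf => absurd hf (h9 e f))
    fun f hf => absurd rfl hf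
  simp only [Pi.zero_apply, zero_smul, Finset.sum_const_zero, sub_zero] at this
  rwa [E1.l2sq_univ, E1.l2sq_univ] at this

/-- The sectors with the spins are bounded by the sum without strings. -/
theorem num (hG : GapW) (hM : GapMS) (hZ : ZeroMS) {Q : Cls} {q : Par} {L : ℕ} {σ γ : ℝ}
    (hL : 2 ≤ L) (h : MSMain Q q L σ γ) (N n Λ₀ Λ₁ : ℕ) (hn : Even n) (hn0 : n ≠ 0) :
    ∃ C : ℝ, 0 ≤ C ∧ ∃ J₀ p₀ : ℕ, ∀ J ≥ J₀, ∀ J' ≥ J + p₀, ∀ (M : ℕ) [NeZero M] (Λ : Finset Site)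
      (fr : Bool) (T ρ H r : ℕ) (a : Site) (hs : Fin H → Site) (c : Site) (x : Fin n → Site),
      Rgh (regOf M Λ fr).In N ρ →
      (∀ B, Str (regOf M Λ fr).pw B (ρ - 1) → Q M ((regOf M Λ fr).pw * B) J') →
      Holes Λ T ρ a hs → (fr = true → H = 0) → (∀ v, zd v c ≤ ρ → v ∈ Λ) → Spins Λ r x →
      (∀ i, zd (x i) c ≤ Λ₁ * sc L J) → 16 * sc L J ≤ r → 64 * sc L J' + 2 ≤ ρ → ρ ≤ T →
      T ≤ Λ₀ * sc L J' → M = 64 * T → ∀ (S : Finset (Fin H)) (u : Cor M), u.Ok → u.Wt σ γ →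
      u.Off (regOf M Λ fr).pw →
        |ZwC q u ((regOf M Λ fr).pw * holeG M a hs S * spinG M c x) 1| ≤
          C * (r : ℝ) ^ (-((n : ℝ) / 8)) * |ZwC q u (regOf M Λ fr).pw 1| := by
  obtain ⟨Γ₀, hΓ₀, r₀, hG⟩ := gap_reg hG N (2 * Λ₀)
  have a0 : (0 : ℝ) ≤ Λ₀ := Nat.cast_nonneg _
  obtain ⟨Γ₁, a1, K₀, hM⟩ := hM (Γ₀ * (Λ₀ + 1)) (by nlinarith) (Λ₁ + 1)
  have a2 : 1 ≤ Γ₁ := le_trans (by nlinarith) a1
  obtain ⟨C₀, hC₀, hZ⟩ := hZ n
  obtain ⟨C, hC, J₀, p₀, h⟩ := h n (64 * Λ₀) (Λ₁ + 16) (64 * Γ₁) (by linarith)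
  refine ⟨C * C₀, by positivity, J₀ + r₀ + 1, p₀ + K₀ * (Λ₁ + 16), fun J hJ J' hJ' M _ Λ fr T ρ H r
    a hs c x hS hB h1 hfr hc hx hR r1 r2 r3 r4 hMT S u u1 u2 u3 => ?_⟩
  have l1 : 8 * J + 8 ≤ sc L J := sc_ge hL
  have l2 : 8 * J' + 8 ≤ sc L J' := sc_ge hL
  have l3 : K₀ * (Λ₁ + 16) * sc L J ≤ sc L J' := by
    have e1 : K₀ * (Λ₁ + 16) < 2 ^ (K₀ * (Λ₁ + 16)) := Nat.lt_two_pow_self
    have e2 : 2 ^ (K₀ * (Λ₁ + 16)) ≤ L ^ (K₀ * (Λ₁ + 16)) := Nat.pow_le_pow_left hL _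
    have e3 : L ^ (K₀ * (Λ₁ + 16)) * L ^ J ≤ L ^ J' := by
      rw [← pow_add]
      exact Nat.pow_le_pow_right (by omega) (by omega)
    have e4 : K₀ * (Λ₁ + 16) * L ^ J ≤ L ^ (K₀ * (Λ₁ + 16)) * L ^ J :=
      Nat.mul_le_mul_right _ (by omega)
    unfold sc
    rw [mul_left_comm]
    omega
  set ℓ := sc L J with hℓ
  set ℓ' := sc L J' with hℓ'
  set R := regOf M Λ fr with hRR
  have c0 : c ∈ Λ := hc c (by simp [zd_self])
  have c1 : zd c 0 ≤ T := h1.box c c0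
  have c2 : tdist (prj M c) 0 ≤ T := (H3.tdist_prj_zero c).trans c1
  have e0 : spinG M a (Fin.elim0 : Fin 0 → Site) * holeG M a hs S = holeG M a hs S := by
    simp [spinG]
  obtain ⟨s1, s2, s3, s4, -, -⟩ := str_reg (M := M) (fr := fr) (x := Fin.elim0) S h1
    ⟨fun i => i.elim0, fun i => i.elim0⟩ (fun h => ⟨hfr h, Even.zero⟩) (by omega) (by omega)
  have s0 := fun f => DC.ends (M := M) (x := (Fin.elim0 : Fin 0 → Site)) (a := a) (hs := hs)
    (S := S) (f := f)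
  rw [e0] at s0 s1 s2 s3 s4
  set H₁ := holeG M a hs S with hH₁
  have f1 : Flat H₁ (prj M c) (64 * ℓ' + 1) := fun f hf =>
    (DC.flux_sign s1.sign f).resolve_right fun h3 => by
      have h4 := DC.far_out h1 (by omega) c0 ((s0 f h3).resolve_left fun ⟨i, _⟩ => i.elim0)
      rw [tdist_comm] at h4
      omega
  obtain ⟨s, g1, g2, g3⟩ := fix s1.sign (by omega) f1
  have t1 := str_dg s1 g1
  have t0 : ∀ f, flux (H₁ * dg s) f = flux H₁ f := fun f => by rw [flux_mul, flux_dg g1, mul_one]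
  have t2 : ∀ f, flux (R.pw * (H₁ * dg s)) f ≠ -1 := fun f hf => by
    rw [flux_mul, t0, ← flux_mul] at hf
    obtain ⟨i, -⟩ := (s3 f).1 hf
    exact i.elim0
  have hbox : ∀ f ∈ R.In, tdist f 0 ≤ 2 * T := fun f hf => by
    obtain ⟨v, hv, rfl⟩ := mem_image.1 hf
    exact (H3.tdist_prj_zero v).trans ((h1.box v hv).trans (by omega))
  have r5 : 2 * T ≤ 2 * Λ₀ * (ρ - 1) := by
    rw [mul_assoc]
    exact Nat.mul_le_mul_left _ (r4.trans (Nat.mul_le_mul_left _ (by omega)))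
  have b1 : Γ₀ * ((2 * T : ℕ) : ℝ) ≤ Γ₀ * (Λ₀ + 1) * ((64 * ℓ' : ℕ) : ℝ) := by
    have e1 : 2 * T ≤ (Λ₀ + 1) * (64 * ℓ') := by nlinarith
    rw [mul_assoc]
    exact mul_le_mul_of_nonneg_left (by exact_mod_cast e1) (by linarith)
  have b2 : Γ₁ * ((64 * ℓ' : ℕ) : ℝ) = 64 * Γ₁ * (ℓ' : ℝ) := by
    push_cast
    ring
  have p1 : Gap (R.pw * (H₁ * dg s)) (Γ₀ * (Λ₀ + 1) * ((64 * ℓ' : ℕ) : ℝ)) := by
    refine Gap.mono (hG M R _ (2 * T) (ρ - 1) (hS.mono (by omega)) t1 hbox (fun e he => ?_)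
      (by omega) (by omega) r5 (by omega) fun hf f h3 => ?_) (by positivity) b1
    · have h3 := tdist_triangle e.1 (prj M c) 0
      rw [Pi.mul_apply, s2 e (by omega), g3 e (by omega), one_mul]
    · rw [t0] at h3
      obtain ⟨i, -⟩ := (s4 hf f).1 h3
      exact i.elim0
  have p0 : Gap R.pw (64 * Γ₁ * (ℓ' : ℝ)) := by
    have := hG M R 1 (2 * T) (ρ - 1) (hS.mono (by omega)) (str_one _ _) hbox (fun _ _ => rfl)
      (by omega) (by omega) r5 (by omega) fun _ f => by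
        simp only [flux, Pi.one_apply]
        norm_num
    rw [mul_one] at this
    refine Gap.mono this (by positivity) (b1.trans ?_)
    rw [← b2]
    exact mul_le_mul_of_nonneg_right a1 (by positivity)
  have o1 : ∀ e, tdist e.1 (prj M c) ≤ 64 * ℓ' → R.pw e = 1 ∧ (H₁ * dg s) e = 1 := fun e he =>
    ⟨DC.pw_one hc fr e (by omega), g2 e he⟩
  obtain ⟨k1, k2, k3⟩ := cluster (M := M) hn (c := c) (R := (Λ₁ + 16) * ℓ) (r := 16 * ℓ)
    (fun i => h1.box _ (DC.spin_mem hx i)) (by omega)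
    (fun i => by have := hR i; rw [add_mul]; omega) fun i j e => r1.trans_lt (hx.sep i j e)
  have p2 := hM M (R.pw * (H₁ * dg s)) (spinG M c x) (prj M c) (16 * ℓ) ((Λ₁ + 16) * ℓ) (64 * ℓ')
    (R.isP.mul t1.sign) (fun e he => by rw [Pi.mul_apply, (o1 e he).1, (o1 e he).2, one_mul]) k1
    ⟨_, k2 ⟨0, Nat.pos_of_ne_zero hn0⟩⟩ (by omega) (Nat.mul_le_mul_right _ (by omega))
    (by nlinarith) (by rw [← mul_assoc]; omega) (by omega) p1
  rw [b2] at p2
  have b0 := hB 1 (str_one _ _)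
  rw [mul_one] at b0
  have dom : DomMS Q R.pw (H₁ * dg s) (spinG M c x) (prj M c) L J J' n (64 * Λ₀) (Λ₁ + 16)
      (64 * Γ₁) :=
    { P_ok := R.isP
      str := t1.mono (by omega)
      nofl := t2
      lo := by omega
      hi := by rw [hMT, mul_assoc]; exact Nat.mul_le_mul_left _ r4
      bd := hB _ t1
      bd0 := b0
      gap0 := p0
      gap := p2
      one := o1
      cl := k1
      cnt := by convert k3 }
  have e1 : R.pw * (H₁ * dg s) * spinG M c x = R.pw * H₁ * spinG M c x * dg s := by ring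
  have z := hZ M Λ fr T r ρ H x a c hs S hn h1 hx c1 hfr (by omega) (by omega) hMT.ge
  have key := h J (by omega) J' (by omega) M R.pw _ _ _ u (C₀ * (r : ℝ) ^ (-((n : ℝ) / 8))) dom u1
    u2 u3 (by positivity) (by rw [e1, Zw_dg g1]; exact z)
  rw [e1, ZwC_dg g1] at key
  exact key.trans (le_of_eq (by ring))

section

variable {M : ℕ} [NeZero M] {H n : ℕ} {q : Par} {Λ : Finset Site} {fr : Bool} {T r : ℕ} {a : Site}
  {hs : Fin H → Site} {W : (Tor M × Fin 2 → Bool) → ℝ}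

/-- The spin correlation as a ratio of sums over the sectors, with strings from `c`. -/
theorem sec_c {E : (Config → ℝ) → ℝ} {x : Fin n → Site} {c : Site} (hE : E (fun _ => 1) = 1)
    (hG : ∀ (F : Config → ℝ) (Φ : (Tor M × Fin 2 → Bool) → ℝ),
      (∀ σ σ', (∀ x ∈ Λ, σ x = σ' x) → F σ = F σ') →
      (∀ s : Tor M → Bool, (fr = false → s (prj M a) = true) → F (per M s) = Φ (dom s)) →
      (fr = true → BoxLoc (T + 1) Φ) → E F =
        secE q (regOf M Λ fr) a hs (fun n => Φ n * W n) / secE q (regOf M Λ fr) a hs W)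
    (h0 : ZwC q ((regOf M Λ fr).cor q) (regOf M Λ fr).pw 1 ≠ 0) (hb : ∀ v ∈ Λ, zd v 0 ≤ T)
    (hc : zd c 0 ≤ T) (hx : ∀ i, x i ∈ Λ) (hn : Even n) :
    E (fun σ => ∏ i, sp (σ (x i))) =
      (∑ S, ZwC q ((regOf M Λ fr).cor q) ((regOf M Λ fr).pw * holeG M a hs S * spinG M c x)
        (fun n => (1 : (Tor M × Fin 2 → Bool) → ℝ) n * W n) /
          ZwC q ((regOf M Λ fr).cor q) (regOf M Λ fr).pw 1) /
      ∑ S, ZwC q ((regOf M Λ fr).cor q) ((regOf M Λ fr).pw * holeG M a hs S)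
        (fun n => (1 : (Tor M × Fin 2 → Bool) → ℝ) n * W n) /
          ZwC q ((regOf M Λ fr).cor q) (regOf M Λ fr).pw 1 := by
  set R := regOf M Λ fr with hR
  have h3 : ∑ S, ZwC q (R.cor q) (R.pw * holeG M a hs S) 1 ≠ 0 := fun h => by
    have h4 := hG (fun _ => 1) (fun _ => 1) (fun _ _ _ => rfl) (fun _ _ => rfl) fun _ _ _ _ => rfl
    rw [hE, secE, h, div_zero, zero_div] at h4
    exact one_ne_zero h4
  have k1 : ∀ d, obs M (fun c' => ∏ i, pHV c' c (x i)) d =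
      ∏ i, obs M (fun c' => pHV c' c (x i)) d := fun _ => rfl
  have h2 := hG (fun σ => ∏ i, sp (σ (x i))) (obs M fun c' => ∏ i, pHV c' c (x i))
    (fun σ σ' h => by simp only [fun i => h _ (hx i)])
    (fun s _ => by
      have k2 : sp (per M s c) ^ n = 1 := by rw [← hn.pow_abs, U1.abs_sp, one_pow]
      rw [k1]
      simp only [pHV_dom]
      rw [prod_mul_distrib, prod_const, card_univ, Fintype.card_fin, k2, one_mul])
    (fun _ d d' h => by simp only [k1, fun i => box_pHV hc (hb _ (hx i)) d d' h])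
  rw [h2]
  unfold secE
  rw [← sum_div, ← sum_div, div_div_div_cancel_right₀ h3, div_div_div_cancel_right₀ h0]
  congr 1
  · refine sum_congr rfl fun S _ => ?_
    rw [ZwC_spinG]
    congr 1
    funext d
    rw [Pi.one_apply]
    ring
  · simp only [Pi.one_apply, one_mul]

end

/-- The sum over the sectors without spins is bounded below. -/
theorem den (hK : KStmtW) {Q : Cls} {q : Par} {Zσ Zε σ γ : ℝ} {L : ℕ} (hL : 2 ≤ L)
    (hM : MainU Q q Zσ Zε L 0 σ γ) (hE : EnU Q q L 0 σ γ) (N H₀ Λ₁ : ℕ) (B : ℝ) :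
    ∃ J₀ : ℕ, ∀ J ≥ J₀, ∀ (M : ℕ) [NeZero M] (Λ : Finset Site) (fr : Bool)
      (T r H : ℕ) (a : Site) (hs : Fin H → Site), H ≤ H₀ → Rgh (regOf M Λ fr).In N r →
      (∀ B, Str (regOf M Λ fr).pw B (r - 1) → Q M ((regOf M Λ fr).pw * B) J) → Holes Λ T r a hs →
      (fr = true → H = 0) → 16 * sc L J + 1 ≤ r → r ≤ T → T ≤ Λ₁ * sc L J → M = 64 * T →
      ∀ (ι : Type) (s : Finset ι) (u : ι → Cor M) (c : ι → ℝ),
      (∀ U, (u U).Ok ∧ (u U).Off (regOf M Λ fr).pw ∧ (u U).Wt σ γ) → ∑ U ∈ s, |c U| ≤ B →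
      1 ≤ B * ∑ U ∈ s, c U →
        1 ≤ 2 * B * ∑ S, ∑ U ∈ s, c U * (ZwC q (u U) ((regOf M Λ fr).pw * holeG M a hs S) 1 /
          ZwC q (u U) (regOf M Λ fr).pw 1) := by
  obtain ⟨B₀, h⟩ := FrU.core hK hL hM hE N 0 H₀ Λ₁
  obtain ⟨J₀, h⟩ := h (1 / (2 * (B ^ 2 + 1))) (by positivity)
  refine ⟨J₀, fun J hJ M _ Λ fr T r H a hs h0 hS hB h1 hfr r1 r2 r3 hMT ι s u c hu s1 s2 => ?_⟩
  have k := h J hJ M Λ fr T r H Fin.elim0 Fin.elim0 Fin.elim0 a hs h0 hS hB h1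
    ⟨fun i => by rcases i with i | i <;> exact i.elim0,
      fun i => by rcases i with i | i <;> exact i.elim0⟩
    (fun h => ⟨hfr h, Even.zero⟩) r1 r2 r3 hMT
  have o1 := TiltH.one_le_mx (M := M) (a := a) (hs := hs) (Fin.elim0 : Fin 0 → Site) Fin.elim0
    h1.box (by omega) hfr
  set R := regOf M Λ fr with hR
  have e : ∀ U, ∑ S, ZwC q (u U) (R.pw * holeG M a hs S) 1 / ZwC q (u U) R.pw 1 =
      mxU q (u U) R a hs (Fin.elim0 : Fin 0 → Site) Fin.elim0 (Fin.elim0 : Fin 0 → Site) ∅ :=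
    fun U => by
      simp only [mxU, mixC, spinG, univ_eq_empty, prod_empty, one_mul]
      rfl
  have k1 : ∀ U, |mxU q (u U) R a hs (Fin.elim0 : Fin 0 → Site) Fin.elim0
      (Fin.elim0 : Fin 0 → Site) ∅ - mx par0 R a hs (Fin.elim0 : Fin 0 → Site) Fin.elim0
      (Fin.elim0 : Fin 0 → Site) ∅| ≤ 1 / (2 * (B ^ 2 + 1)) := fun U => by
    have := ((k _ (hu U).1 (hu U).2.1 (hu U).2.2).1 ∅).1
    simpa only [Nat.cast_zero, zero_div, Real.rpow_zero, card_empty, pow_zero, one_mul] using this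
  rw [sum_comm]
  simp only [← mul_sum, e]
  generalize mx par0 R a hs (Fin.elim0 : Fin 0 → Site) Fin.elim0 (Fin.elim0 : Fin 0 → Site) ∅ = X₀
    at o1 k1
  set X : ι → ℝ := fun U => mxU q (u U) R a hs (Fin.elim0 : Fin 0 → Site) Fin.elim0
    (Fin.elim0 : Fin 0 → Site) ∅ with hX
  change 1 ≤ 2 * B * ∑ U ∈ s, c U * X U
  have b0 : 0 ≤ B := (sum_nonneg fun _ _ => abs_nonneg _).trans s1
  have e1 : ∑ U ∈ s, c U * X U = (∑ U ∈ s, c U) * X₀ + ∑ U ∈ s, c U * (X U - X₀) := by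
    rw [sum_mul, ← sum_add_distrib]
    exact sum_congr rfl fun U _ => by ring
  have e2 : |∑ U ∈ s, c U * (X U - X₀)| ≤ B * (1 / (2 * (B ^ 2 + 1))) := by
    refine (abs_sum_le_sum_abs _ _).trans ((sum_le_sum (g := fun U => |c U| *
      (1 / (2 * (B ^ 2 + 1)))) fun U _ => ?_).trans ?_)
    · rw [abs_mul]
      exact mul_le_mul_of_nonneg_left (k1 U) (abs_nonneg _)
    · rw [← sum_mul]
      exact mul_le_mul_of_nonneg_right s1 (by positivity)
  have e3 : 2 * B * (B * (1 / (2 * (B ^ 2 + 1)))) ≤ 1 := by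
    rw [show 2 * B * (B * (1 / (2 * (B ^ 2 + 1)))) = B ^ 2 / (B ^ 2 + 1) by field_simp,
      div_le_one (by positivity)]
    linarith
  have e4 := mul_le_mul_of_nonneg_left (abs_le.1 e2).1 (show 0 ≤ 2 * B by positivity)
  have e5 := mul_le_mul s2 o1 zero_le_one (zero_le_one.trans s2)
  rw [e1]
  nlinarith

theorem fin {ι κ : Type} [Fintype κ] {s : Finset ι} {w : ι → ℝ} {X : κ → ι → ℝ} {Z : ι → ℝ}
    {B₁ B₂ C Y N : ℝ} (b0 : 0 ≤ B₁) (h1 : 1 ≤ 2 * B₁ * Y) (h2 : ∑ U ∈ s, |w U| ≤ B₂) (hC : 0 ≤ C)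
    (hZ : ∀ U, Z U ≠ 0) (h3 : ∀ S U, |X S U| ≤ C * |Z U|) (h4 : (Fintype.card κ : ℝ) ≤ N) :
    |(∑ S, ∑ U ∈ s, w U * (X S U / Z U)) / Y| ≤ 2 * |B₁| * (N * (|B₂| * C)) := by
  have Y0 : 0 < Y := by
    by_contra h
    nlinarith [mul_nonneg b0 (neg_nonneg.2 (not_lt.1 h))]
  have N0 : 0 ≤ N := (Nat.cast_nonneg _).trans h4
  have k3 : |∑ S, ∑ U ∈ s, w U * (X S U / Z U)| ≤ N * (|B₂| * C) := by
    refine (abs_sum_le_sum_abs _ _).trans ((sum_le_card_nsmul _ _ (|B₂| * C)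
      fun S _ => ?_).trans ?_)
    · refine (abs_sum_le_sum_abs _ _).trans ((sum_le_sum (g := fun U => |w U| * C)
        fun U _ => ?_).trans ?_)
      · rw [abs_mul, abs_div]
        exact mul_le_mul_of_nonneg_left ((div_le_iff₀ (abs_pos.2 (hZ U))).2 (h3 S U))
          (abs_nonneg _)
      · rw [← sum_mul]
        exact mul_le_mul_of_nonneg_right (h2.trans (le_abs_self _)) hC
    · rw [nsmul_eq_mul, card_univ]
      exact mul_le_mul_of_nonneg_right h4 (by positivity)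
  rw [abs_div, abs_of_pos Y0, div_le_iff₀ Y0, abs_of_nonneg b0]
  refine k3.trans ?_
  calc _ = N * (|B₂| * C) * 1 := (mul_one _).symm
    _ ≤ N * (|B₂| * C) * (2 * B₁ * Y) := mul_le_mul_of_nonneg_left h1 (by positivity)
    _ = _ := by ring

open ELat in
/-- The bound at all scales on the lattice. -/
theorem msLat_of (hK : KStmtW) (hG : GapW) (hO : HolesW) (hS : SpStmt) (hM : GapMS) (hZ : ZeroMS)
    {Raw : Finset Site → ℕ → Prop} {Cl : Cls} {q : Par} {Zσ Zε : ℝ} {L : ℕ} (hL2 : 2 ≤ L)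
    (hq : q.Ok) (hsm : q.Small 1) (hU : UnivU Cl q Zσ Zε L 0) (hU' : UnivMS Cl q L)
    (hD : GeoF Raw Cl L) : MSLat Raw q := by
  intro J lam β hJ hμ hx n Λ₀ Λ₁ hn
  rcases eq_or_ne n 0 with rfl | hn0
  · refine ⟨1, zero_le_one, 0, 0, fun r R ρ Λ b c x _ _ _ _ _ _ _ _ _ _ => ?_⟩
    simp only [univ_eq_empty, prod_empty]
    rw [UG.gibbs_one]
    simp
  obtain ⟨t, N, Q, JG, ht, hQ, hD⟩ := hD
  have rq : Rel J lam β q := ⟨hq.pot, hq.range, hμ, hx⟩
  obtain ⟨H₀, Qh, hQh, hO⟩ := hO N ((Λ₀ + 1) * (2 * Q))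
  obtain ⟨c, hc⟩ : ∃ c : ℕ, c = 2 * Q * (2 * Qh * (2 * 2 * ((Q + 66) * L))) := ⟨_, rfl⟩
  obtain ⟨σ, γ, θ, hσ, hθ, hΔ, hM1, hE1⟩ := hU
  obtain ⟨σ', γ', θ', hσ', hθ', hΔ', hM2⟩ := hU'
  obtain ⟨C₁, hC₁, hS⟩ := hS q.R t
  obtain ⟨B₁, hT⟩ := FrU.tilt ((4 * ((Λ₀ + 1) * (2 * Q)) + 1) ^ 2) (t + q.R + 2) hC₁ hθ hσ
  obtain ⟨B₂, hT'⟩ := FrU.tilt ((4 * ((Λ₀ + 1) * (2 * Q)) + 1) ^ 2) (t + q.R + 2) hC₁ hθ' hσ'
  obtain ⟨J₁, hd⟩ := den hK hL2 hM1 hE1 N H₀ (2 * (Λ₀ + 1) * c) B₁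
  obtain ⟨C, hC, J₀, p₀, hm⟩ := num hG hM hZ hL2 hM2 N n (2 * (Λ₀ + 1) * c) (16 * L * Λ₁) hn hn0
  obtain ⟨k, hk⟩ : ∃ k, k = (Q + 66) * L ^ p₀ + 2 := ⟨_, rfl⟩
  refine ⟨2 * |B₁| * (2 ^ H₀ * (|B₂| * C)), by positivity,
    16 * sc L (J₀ + J₁ + JG + t + q.R + q.R), Q * (Qh * (2 * (k + 1))) + 4 * t,
    fun s R r Λ b z x hb hR hΛ hz x1 x2 r1 r2 r3 r4 => ?_⟩
  obtain ⟨J₂, m1, m2, m3⟩ := Mn.exists_scale (c := 16) hL2 (by omega) r1
  rw [show sc L (J₂ + 1) = L * sc L J₂ by unfold sc; ring, ← mul_assoc] at m3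
  have s8 := sc_ge (J := J₂) hL2
  obtain ⟨s₀, hs₀⟩ : ∃ s₀, s₀ = k * R := ⟨_, rfl⟩
  have hr : Q * (Qh * (2 * (s₀ + 1))) + 4 * t ≤ r := by
    refine le_trans ?_ r4
    have e1 : s₀ + 1 ≤ (k + 1) * R := by rw [hs₀, add_mul]; omega
    have e2 : 4 * t ≤ 4 * t * R := Nat.le_mul_of_pos_right _ (by omega)
    have e3 : Q * (Qh * (2 * (s₀ + 1))) ≤ Q * (Qh * (2 * (k + 1))) * R := by
      simp only [mul_assoc]
      gcongr
    rw [add_mul]
    omega
  have s1 : (Q + 66) * sc L (J₂ + p₀) ≤ s₀ ∧ 2 * R ≤ s₀ := by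
    have e1 : sc L (J₂ + p₀) = L ^ p₀ * sc L J₂ := by unfold sc; ring
    have e2 : (Q + 66) * L ^ p₀ * sc L J₂ ≤ (Q + 66) * L ^ p₀ * R :=
      Nat.mul_le_mul_left _ (by omega)
    rw [hs₀, hk, add_mul ((Q + 66) * L ^ p₀), e1, ← mul_assoc]
    omega
  have f1 : Qh * (2 * (s₀ + 1)) ≤ r / Q :=
    (Nat.le_div_iff_mul_le hQ).2 (by rw [mul_comm]; omega)
  have f2 : 2 * (s₀ + 1) ≤ r / Q / Qh := (Nat.le_div_iff_mul_le hQh).2 (by rw [mul_comm]; omega)
  have f3 : Qh ≤ r / Q := le_trans (Nat.le_mul_of_pos_right _ (by omega)) f1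
  have f4 : Q ≤ r := (Nat.le_mul_of_pos_right Q (by omega : 0 < r / Q)).trans (Nat.mul_div_le r Q)
  have f5 : r / Q ≤ r := Nat.div_le_self _ _
  have f6 : r / Q / Qh ≤ r / Q := Nat.div_le_self _ _
  have g1 := le_mul_div hQ f4
  have g2 := le_mul_div hQh f3
  have g3 := le_mul_div (Q := 2) (r := r / Q / Qh) (by norm_num) (by omega)
  obtain ⟨ρ, hρ⟩ : ∃ ρ, ρ = r / Q / Qh / 2 := ⟨_, rfl⟩
  rw [← hρ] at g3
  obtain ⟨J', n1, n2, n3⟩ := Mn.exists_scale (c := Q + 66) (J := J₂ + p₀) (M := ρ) hL2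
    (by omega) (by omega)
  rw [show sc L (J' + 1) = L * sc L J' by unfold sc; ring, ← mul_assoc] at n3
  rw [add_mul] at n2
  have s9 := sc_ge (J := J') hL2
  have e1 : (Λ₀ + 1) * r = Λ₀ * r + r := by ring
  have e4 : r ≤ c * sc L J' := by
    rw [hc]
    simp only [mul_assoc] at g1 g2 g3 n3 ⊢
    refine g1.trans (by gcongr; refine g2.trans (by gcongr; exact g3.trans (by gcongr)))
  have e5 : 2 * ((Λ₀ + 1) * r) ≤ 2 * (Λ₀ + 1) * c * sc L J' := by
    simp only [mul_assoc]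
    gcongr
  have e6 : (Λ₀ + 1) * r ≤ (Λ₀ + 1) * (2 * Q) * (r / Q) := by
    rw [mul_assoc]
    gcongr
  have e7 : 2 * ((Λ₀ + 1) * r + t) ≤ 4 * ((Λ₀ + 1) * (2 * Q)) * (r / Q + 1) := by
    rw [mul_assoc 4, mul_add_one ((Λ₀ + 1) * (2 * Q))]
    omega
  have e8 : R ≤ 16 * L * Λ₁ * sc L J₂ := by
    refine r3.trans ((Nat.mul_le_mul_left _ m3).trans (le_of_eq ?_))
    ring
  set T := (Λ₀ + 1) * r with hT₀
  have hΛ' : ∀ v ∈ Λ, zd v 0 ≤ T := fun v hv => (hΛ v hv).trans (by omega)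
  have : NeZero (64 * (2 * T)) := ⟨by omega⟩
  set M := 64 * (2 * T) with hMd
  obtain ⟨P, p1, p0, sW⟩ := hD Λ r T hR f4 (by omega) hΛ'
  obtain ⟨sW, hB⟩ := sW M (by omega)
  obtain ⟨fr, H, hH', a, hs', rfl, h1, hcn, hfr⟩ : ∃ fr : Bool, ∃ H ≤ H₀, ∃ a,
      ∃ hs' : Fin H → Site, b = (if fr then none else some fun _ => true) ∧
      Holes (dig Λ P t) (2 * T) ρ a hs' ∧ (fr = false → Cn M (dig Λ P t) a hs') ∧
      (fr = true → H = 0) := by
    obtain ⟨H, hH', a, hs', h1, hcn⟩ := hO (dig Λ P t) T (r / Q) M sW f3 (by omega) e6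
      (fun v hv => hΛ' v (mem_dig.1 hv).1) (by omega)
    have h2 := holes_mono h1 (r' := ρ) (by omega)
    rcases hb with rfl | rfl
    · exact ⟨true, 0, Nat.zero_le _, a, Fin.elim0, rfl, ⟨h2.box, h2.a_le, fun i => i.elim0,
        h2.a_out, fun i => i.elim0, fun i => i.elim0, fun i => i.elim0⟩, by simp, fun _ => rfl⟩
    · exact ⟨false, H, hH', a, hs', rfl, h2, fun _ => hcn, by simp⟩
  have hbd : ∀ B, Str (regOf M (dig Λ P t) fr).pw B (ρ - 1) →
      Cl M ((regOf M (dig Λ P t) fr).pw * B) J' := fun B h =>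
    hB fr B (ρ - 1) J' h (by omega) (by omega) (by omega)
  have hzd : ∀ v, zd v z ≤ ρ → v ∈ dig Λ P t :=
    (spins_dig (r' := ρ) (x := fun _ : Unit => z) ⟨fun _ => hz, fun _ _ h => absurd rfl h⟩
      (fun p hp => (p1 p hp).2) (by omega)).ins ()
  have hsp : Spins (dig Λ P t) s x := ⟨fun i v hv => hzd v (by
    have := GeoA.zd_tri v (x i) z
    have := x1 i
    omega), x2⟩
  have p2 : ∀ p ∈ P, zd p 0 ≤ 2 * T := fun p hp => (p1 p hp).1.trans (by omega)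
  have p3 : ∀ p ∈ P, ∀ p' ∈ P, p ≠ p' → 2 * (t + q.R + 2) < zd p p' := fun p hp p' hp' e =>
    lt_of_le_of_lt (by omega) (p0 p hp p' hp' e)
  have p4 := B5a2.card_net (fun p hp => (p1 p hp).1) p0 e7
  obtain ⟨O, hO, hb, hG⟩ := hS J lam β q rq rq.range hq.x_lo hq.x_hi hsm M Λ P fr (2 * T) ρ H a hs'
    h1 hcn hfr p2 p3 (by omega)
  have x0 : 0 < q.x := by linarith [hq.x_lo]
  have p5 : ∀ p ∈ P, zd p 0 ≤ 2 * T ∧ ∀ v, zd v p ≤ 1 → v ∉ dig Λ P t := fun p hp =>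
    ⟨p2 p hp, fun v hv h => by
      have := (mem_dig.1 h).2 p hp
      omega⟩
  obtain ⟨d1, d2, d3⟩ := hΔ M (regOf M (dig Λ P t) fr)
  obtain ⟨-, -, d4⟩ := hΔ' M (regOf M (dig Λ P t) fr)
  obtain ⟨u, w, hu, u1, u2, hT⟩ := hT q x0 M (dig Λ P t) P fr (2 * T) O γ h1.box p5 p3 p4
    (by omega) hO hb d1 d2 d3
  obtain ⟨u', w', hu', u3, -, hT'⟩ := hT' q x0 M (dig Λ P t) P fr (2 * T) O γ' h1.box p5 p3 p4
    (by omega) hO hb d1 d2 d4
  have Z0 := (TiltH.avg x0 h1.box (by omega : 4 * (2 * T + q.R + 2) ≤ M) fr).1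
  have k1 := hd J' (by omega) M _ fr (2 * T) ρ H a hs' hH' (sW.mono (by omega)) hbd h1 hfr
    (by omega) (by omega) e5 rfl _ _ u w (fun U => ⟨(hu U).1, (hu U).2.1, (hu U).2.2.1⟩) u1 u2
  have k2 := fun S U => hm J₂ (by omega) J' n1 M _ fr (2 * T) ρ H s a hs' z x (sW.mono (by omega))
    hbd h1 hfr hzd hsp (fun i => (x1 i).trans e8) m2 (by omega) (by omega) e5 rfl S (u' U)
    (hu' U).1 (hu' U).2.2.1 (hu' U).2.1
  rw [sec_c (c := z) (UG.gibbs_one _ _) hG Z0 h1.box (h1.box z (hzd z (by simp [zd_self])))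
    (fun i => DC.spin_mem hsp i) hn]
  conv_lhs => enter [1, 1, 2, S]; rw [hT']
  conv_lhs => enter [1, 2, 2, S]; rw [hT]
  refine (fin (N := 2 ^ H₀) ((sum_nonneg fun _ _ => abs_nonneg _).trans u1) k1 u3
    (mul_nonneg hC (Real.rpow_nonneg (Nat.cast_nonneg s) _)) (fun U => (hu' U).2.2.2) k2 ?_).trans
    (le_of_eq (by ring))
  rw [Fintype.card_finset, Fintype.card_fin]
  exact_mod_cast Nat.pow_le_pow_right (by norm_num) hH'

open U2D in
/-- From the lattice to the domain. -/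
theorem sepD_of {J lam β T ρ : ℝ} {q : Par} {Raw : Finset Site → ℕ → Prop} (h : MSLat Raw q)
    (hJ : 0 < J) (hV : IsPotential q.V) (hμ : q.μ = β * lam) (hx : q.x = Real.exp (-(2 * β * J)))
    {D : Set ℂ} (hT : 0 < T) (hρ : 0 < ρ) (h1 : ∀ a > (0 : ℝ),
      (∀ x, x ∈ disc D a ↔ (⟨a * x.1, a * x.2⟩ : ℂ) ∈ D) ∧ (∀ x ∈ disc D a, a * zd x 0 ≤ T) ∧
        ∀ r : ℕ, 1 ≤ r → a * r ≤ ρ → Raw (disc D a) r) {b : Option (ℝ → Config)} (hb : StdBC b) :
    SepD D (inDom J lam q.V β D b) := by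
  intro s₀ hs₀ n hn δ₀ hδ₀
  obtain ⟨s, hs, hs1, hsρ⟩ : ∃ s > (0 : ℝ), 5 * s ≤ s₀ ∧ s ≤ ρ :=
    ⟨min (s₀ / 5) ρ, by positivity, by linarith [min_le_left (s₀ / 5) ρ], min_le_right _ _⟩
  obtain ⟨δ, hδ, hδ1, hδ2⟩ : ∃ δ > (0 : ℝ), δ ≤ 1 ∧ δ ≤ δ₀ :=
    ⟨min 1 δ₀, by positivity, min_le_left _ _, min_le_right _ _⟩
  obtain ⟨C, hC, r₀, K₀, h⟩ := h J lam β hJ hμ hx n ⌈2 * T / s⌉₊ ⌈16 / δ⌉₊ hn
  refine ⟨C * ((δ / 8) ^ (-(1 / 8) : ℝ)) ^ n, 32 * (r₀ + 1) / δ, s / (4 * (K₀ + 1)), by positivity,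
    by positivity, by positivity, fun a ε z x ha a1 a2 hz x1 x2 => ?_⟩
  obtain ⟨d1, d2, d3⟩ := h1 a ha
  have r0 : (0 : ℝ) ≤ r₀ := Nat.cast_nonneg _
  have K0 : (0 : ℝ) ≤ K₀ := Nat.cast_nonneg _
  obtain ⟨u, hu⟩ : ∃ u, u = ε / a := ⟨_, rfl⟩
  obtain ⟨v, hv⟩ : ∃ v, v = s / a := ⟨_, rfl⟩
  have eu : ε = a * u := by rw [hu]; field_simp
  have ev : s = a * v := by rw [hv]; field_simp
  have b1 : 32 * (r₀ + 1) ≤ δ * u := by
    rw [div_mul_eq_mul_div, div_le_iff₀ hδ, eu] at a1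
    refine le_of_mul_le_mul_left ?_ ha
    linarith
  have u0 : 0 < u := (mul_pos_iff_of_pos_left hδ).1 (by linarith)
  have b2 : 16 ≤ u := by nlinarith
  have b3 : 4 * (K₀ + 1) * u ≤ v := by
    rw [le_div_iff₀ (by positivity), eu, ev] at a2
    refine le_of_mul_le_mul_left ?_ ha
    linarith
  have b4 : 64 ≤ v := by nlinarith
  have ε0 : 0 < ε := by rw [eu]; positivity
  obtain ⟨r, c1, c2⟩ : ∃ r : ℕ, (r : ℝ) ≤ δ * u / 4 ∧ δ * u / 4 < r + 1 :=
    ⟨_, Nat.floor_le (by positivity), Nat.lt_floor_add_one _⟩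
  obtain ⟨R, c3, c4⟩ : ∃ R : ℕ, u + 4 ≤ R ∧ (R : ℝ) < u + 4 + 1 :=
    ⟨_, Nat.le_ceil _, Nat.ceil_lt_add_one (by positivity)⟩
  obtain ⟨w, c5, c6⟩ : ∃ w : ℕ, (w : ℝ) ≤ v ∧ v < w + 1 :=
    ⟨_, Nat.floor_le (by positivity), Nat.lt_floor_add_one _⟩
  have c7 : δ * u / 8 ≤ r := by linarith
  have hn' : ∀ y : ℂ, |(((fl a y).1 : ℤ) : ℝ) - y.re / a| ≤ 2 ∧
      |(((fl a y).2 : ℤ) : ℝ) - y.im / a| ≤ 2 := fun y => by
    simpa using U4.fl_near a y 0 (by simp) (by simp)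
  have hd : ∀ y y' : ℂ, |y.re / a - y'.re / a| = |(y - y').re| / a ∧
      |y.im / a - y'.im / a| = |(y - y').im| / a := fun y y' => by
    rw [← sub_div, ← sub_div, abs_div, abs_div, abs_of_pos ha]
    exact ⟨rfl, rfl⟩
  have t1 : ∀ p p' t t' : ℝ, |p - t| ≤ 2 → |p' - t'| ≤ 2 →
      |p - p'| ≤ |t - t'| + 4 ∧ |t - t'| ≤ |p - p'| + 4 := fun p p' t t' k k' => by
    rw [abs_le] at k k'
    constructor <;> rw [abs_le] <;> constructor <;>
      linarith [le_abs_self (t - t'), neg_abs_le (t - t'), le_abs_self (p - p'),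
        neg_abs_le (p - p')]
  have key := fun b hb => h r R w (disc D a) b (fl a z) (fun i => fl a (x i)) hb
    (d3 w (by exact_mod_cast (by linarith : (1 : ℝ) ≤ w))
      ((mul_le_mul_of_nonneg_left c5 ha.le).trans (ev ▸ hsρ)))
    (fun y hy => by
      have : (zd y 0 : ℝ) ≤ (⌈2 * T / s⌉₊ : ℝ) * w := by
        calc (zd y 0 : ℝ) ≤ T / a := by
              rw [le_div_iff₀' ha]
              exact d2 y hy
          _ = 2 * T / s * (v / 2) := by rw [hv]; field_simp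
          _ ≤ _ := mul_le_mul (Nat.le_ceil _) (by linarith) (by positivity) (by positivity)
      exact_mod_cast this)
    (fun y hy => (d1 y).2 (hz (by
      have h6 : (zd y (fl a z) : ℝ) ≤ v := le_trans (by exact_mod_cast hy) c5
      rw [U4.zd_cast, max_le_iff] at h6
      have k : ∀ p p' t : ℝ, |p - p'| ≤ v → |p' - t / a| ≤ 2 → |a * p - t| ≤ 2 * s := by
        intro p p' t k1 k2
        have k3 : |p - t / a| ≤ 2 * v := (abs_sub_le p p' _).trans (by linarith)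
        rw [show a * p - t = a * (p - t / a) by field_simp, abs_mul, abs_of_pos ha, ev,
          mul_left_comm]
        exact mul_le_mul_of_nonneg_left k3 ha.le
      rw [Metric.mem_ball, dist_eq_norm]
      refine lt_of_le_of_lt (Complex.norm_le_abs_re_add_abs_im _) ?_
      have k1 := k _ _ _ h6.1 (hn' z).1
      have k2 := k _ _ _ h6.2 (hn' z).2
      simp only [Complex.sub_re, Complex.sub_im]
      linarith)))
    (fun i => by
      have k0 : ‖x i - z‖ / a ≤ u := by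
        rw [hu]
        exact div_le_div_of_nonneg_right (mem_ball_iff_norm.1 (x1 i)).le ha.le
      have k1 := div_le_div_of_nonneg_right (Complex.abs_re_le_norm (x i - z)) ha.le
      have k2 := div_le_div_of_nonneg_right (Complex.abs_im_le_norm (x i - z)) ha.le
      have k3 := (t1 _ _ _ _ (hn' (x i)).1 (hn' z).1).1
      have k4 := (t1 _ _ _ _ (hn' (x i)).2 (hn' z).2).1
      rw [(hd _ _).1] at k3
      rw [(hd _ _).2] at k4
      have : (zd (fl a (x i)) (fl a z) : ℝ) ≤ R := by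
        rw [U4.zd_cast, max_le_iff]
        constructor <;> linarith
      exact_mod_cast this)
    (fun i j e => by
      have k0 : δ * u ≤ ‖x i - x j‖ / a := by
        rw [le_div_iff₀' ha, ← mul_left_comm, ← eu]
        exact (mul_le_mul_of_nonneg_right hδ2 ε0.le).trans (x2 i j e)
      have k1 := div_le_div_of_nonneg_right (Complex.norm_le_abs_re_add_abs_im (x i - x j)) ha.le
      have k3 := (t1 _ _ _ _ (hn' (x i)).1 (hn' (x j)).1).2
      have k4 := (t1 _ _ _ _ (hn' (x i)).2 (hn' (x j)).2).2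
      rw [(hd _ _).1] at k3
      rw [(hd _ _).2] at k4
      rw [add_div] at k1
      have : (r : ℝ) < zd (fl a (x i)) (fl a (x j)) := by
        rw [U4.zd_cast]
        have k5 := le_max_left |(((fl a (x i)).1 : ℤ) : ℝ) - (fl a (x j)).1|
          |(((fl a (x i)).2 : ℤ) : ℝ) - (fl a (x j)).2|
        have k6 := le_max_right |(((fl a (x i)).1 : ℤ) : ℝ) - (fl a (x j)).1|
          |(((fl a (x i)).2 : ℤ) : ℝ) - (fl a (x j)).2|
        linarith
      exact_mod_cast this)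
    (by exact_mod_cast (by linarith : (r₀ : ℝ) ≤ r))
    (by exact_mod_cast (by nlinarith : (r : ℝ) ≤ R))
    (by
      have : (R : ℝ) ≤ (⌈16 / δ⌉₊ : ℝ) * r := by
        calc (R : ℝ) ≤ 16 / δ * (δ * u / 8) := by
              rw [show 16 / δ * (δ * u / 8) = 2 * u by field_simp; ring]
              linarith
          _ ≤ _ := mul_le_mul (Nat.le_ceil _) c7 (by positivity) (by positivity)
      exact_mod_cast this)
    (by
      have : (K₀ : ℝ) * R ≤ w := by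
        have := mul_le_mul_of_nonneg_left (show (R : ℝ) ≤ 2 * u by linarith) K0
        nlinarith
      exact_mod_cast this)
  have e0 : ∀ b, lcor (gibbs J lam q.V β b (disc D a)) (fun i => fl a (x i))
      (fun k => fl a ((![] : Fin 0 → ℂ) k)) ![] =
      gibbs J lam q.V β b (disc D a) fun σ => ∏ i, sp (σ (fl a (x i))) := fun b => by
    simp only [lcor, univ_eq_empty, prod_empty, mul_one]
  have k1 : |lcor (inDom J lam q.V β D b a) (fun i => fl a (x i))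
      (fun k => fl a ((![] : Fin 0 → ℂ) k)) ![]| ≤ C * (r : ℝ) ^ (-((n : ℝ) / 8)) := by
    rcases hb with rfl | rfl | rfl
    · exact (congrArg abs (e0 none)).trans_le (key none (Or.inl rfl))
    · exact (congrArg abs (e0 _)).trans_le (key _ (Or.inr rfl))
    · have e1 := lcor_not (J := J) (lam := lam) (β := β) hV (disc D a) (fun _ => true)
        (fun i => fl a (x i)) (fun k => fl a ((![] : Fin 0 → ℂ) k)) ![]
      change |lcor (gibbs J lam q.V β (some fun _ => !true) (disc D a)) _ _ _| ≤ _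
      rw [e1, hn.neg_one_pow, one_mul, e0]
      exact key _ (Or.inr rfl)
  have k2 := U4.scale (c := δ * ε / 4) (r := r) ha (by positivity)
    (by rw [eu, show δ * (a * u) / 4 / (2 * a) = δ * u / 8 by field_simp; ring]; exact c7) n 0
  simp only [pow_zero, mul_one, div_one, neg_div] at k2
  unfold inDom at *
  rw [corr_eq, abs_mul, abs_of_nonneg (by positivity)]
  refine (mul_le_mul_of_nonneg_left k1 (by positivity)).trans ?_
  simp only [pow_zero, mul_one]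
  rw [mul_left_comm, mul_assoc, ← mul_pow, ← Real.mul_rpow (by positivity) ε0.le,
    show δ / 8 * ε = δ * ε / 4 / 2 by ring]
  exact mul_le_mul_of_nonneg_left k2 hC

end Vale.Agent.N144.Lat
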