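import Vale.Agent.N144.Lat.Fin
import Vale.Agent.N144.Sb.Main

/-!
The final assembly, with the local Sobolev spaces.
-/

namespace Vale.Agent.N144.Lat

open Filter Topology Vale.Agent.P144 Vale.Agent.P144Z Vale.Agent.P144C Vale.Agent.P144B

open Vale.Agent.P144F58 in
theorem fin2_of (hMS : GenMS) :
    ∃ κ : ℝ → ℝ → ℝ, (∀ K < 1, ∀ α > 0, 0 < κ K α) ∧
    (∀ D, IsC1 D ∨ IsPC1 D ∨ IsPolygon D ∨ IsOpen D ∧ Bornology.IsBounded D ∧ Convex ℝ D →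
      ∃ K₀ < 1, ∀ K < 1, K₀ ≤ K → MixK K (1 - K) (κ K (1 - K)) D) ∧ ∀ J > 0,
    ∃ (C : Pts → ℝ) (CD : Set ℂ → Option (ℝ → Config) → Pts → ℝ),
    (∃ E₀, PlaneFam J 0 (fun _ => 0) (Kc / J) E₀) ∧
    (∀ E₀, PlaneFam J 0 (fun _ => 0) (Kc / J) E₀ → LocLim Set.univ E₀ C) ∧
    (∀ p, Good Set.univ p → (∀ E₀, PlaneFam J 0 (fun _ => 0) (Kc / J) E₀ → Lim E₀ p (C p)) ∧
      (∀ j, C { p with j := j } = C p) ∧ (p.m = 0 → Even p.n → 0 < C p) ∧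
      ∀ w t : ℂ, w ≠ 0 → C p = (‖w‖ ^ (1 / 8 : ℝ)) ^ p.n * ‖w‖ ^ p.m *
        C { p with x := fun i => w * p.x i + t, y := fun k => w * p.y k + t }) ∧
    (∀ D b, P144Y.Nice D b → LocLim D (crit J D b) (CD D b) ∧ ∀ p, Good D p →
      Lim (crit J D b) p (CD D b p) ∧ (∀ j, CD D b { p with j := j } = CD D b p) ∧
      (p.m = 0 → (b = none ∧ Even p.n ∨ b = some fun _ _ => true) → 0 < CD D b p) ∧
      ∀ D' φ, P144Y.Nice D' b → DifferentiableOn ℂ φ D → Set.BijOn φ D D' →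
        CD D b p = (∏ i, ‖deriv φ (p.x i)‖ ^ (1 / 8 : ℝ)) * (∏ k, ‖deriv φ (p.y k)‖) *
          CD D' b { p with x := fun i => φ (p.x i), y := fun k => φ (p.y k) }) ∧
    ∀ K < 1, ∀ V, IsPotential V → ∃ lam₀ > 0,
      ∃ β Zσ Zε : ℝ → ℝ, AnalyticOnNhd ℝ β (Set.Ioo (-lam₀) lam₀) ∧
      AnalyticOnNhd ℝ Zσ (Set.Ioo (-lam₀) lam₀) ∧ AnalyticOnNhd ℝ Zε (Set.Ioo (-lam₀) lam₀) ∧
      β 0 = Kc / J ∧ Zσ 0 = 1 ∧ Zε 0 = 1 ∧ ∀ lam : ℝ, |lam| < lam₀ →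
        0 < β lam ∧ 0 < Zσ lam ∧ 0 < Zε lam ∧
        (∃ μ, IsPlaneState J lam V (β lam) μ ∧ IsTorusState J lam V (β lam) μ ∧
          (∀ p, Good Set.univ p → Lim (famOf μ) p (Zσ lam ^ p.n * Zε lam ^ p.m * C p)) ∧
          LocLim Set.univ (famOf μ) (fun p => Zσ lam ^ p.n * Zε lam ^ p.m * C p) ∧
          Mom μ (Zσ lam) C ∧ P144V.LawD μ (Zσ lam) C ∧ FieldH Set.univ (famOf μ) (Zσ lam) C) ∧
        ∀ D b, ((IsC1 D ∨ IsPC1 D ∨ IsPolygon D ∨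
              IsOpen D ∧ Bornology.IsBounded D ∧ Convex ℝ D) ∧
              (StdBC b ∨ SignBC D b ∨ ∀ k > 0, SignL (Two k) D b) ∨
            (IsLip K D ∨ MixK K (1 - K) (κ K (1 - K)) D) ∧
              (StdBC b ∨ SignL (fun _ => True) D b) ∨
            (∃ α > 0, TameK α (κ K α) D ∧ (SignK α (κ K α) D b ∨ SignL (Two (κ K α)) D b)) ∨
            ∃ x > 0, ∃ y > 0, D = rect x y ∧ b = some (bcOf {w | w.re * y < w.im * x})) →
          LocDiff D (crit J D b) (inDom J lam V (β lam) D b) (Zσ lam) (Zε lam) ∧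
            Identity D (crit J D b) (inDom J lam V (β lam) D b) (Zσ lam) (Zε lam) ∧
            (P144Y.Nice D b → LocLim D (inDom J lam V (β lam) D b)
              fun p => Zσ lam ^ p.n * Zε lam ^ p.m * CD D b p) ∧
            (StdBC b → ∀ C' : Pts → ℝ, (∀ p, Good D p → p.m = 0 → Lim (crit J D b) p (C' p)) →
              (∃ U : TopologicalSpace.Opens ℂ, ↑U = D ∧
                P144M13.FieldLim U (inDom J lam V (β lam) D b) (Zσ lam) C') ∧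
              FieldH D (inDom J lam V (β lam) D b) (Zσ lam) C') := by
  choose κ hκ h using fun K : {K : ℝ // K < 1} => domX hMS K.2
  have tm : ∀ D, IsC1 D ∨ IsPC1 D ∨ IsPolygon D ∨ IsOpen D ∧ Bornology.IsBounded D ∧ Convex ℝ D →
      ∃ α > 0, TameW α D := by
    rintro D (hD | hD | hD | ⟨o, bd, cv⟩)
    · exact ⟨1, one_pos, TameW.of_tame ((tame_of_C1 hD).mono one_le_two)⟩
    · exact tameW_of_PC1 hD
    · exact tameW_of_PC1 hD.isPC1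
    · exact (tame_of_convex o bd cv).imp fun _ h => ⟨h.1, TameW.of_tame h.2⟩
  refine ⟨fun K => if hK : K < 1 then κ ⟨K, hK⟩ else fun _ => 1,
    fun K hK α hα => by simpa only [dif_pos hK] using hκ ⟨K, hK⟩ α hα, fun D hD => ?_,
    fun J hJ => ?_⟩
  · obtain ⟨α, hα, hD⟩ := tm D hD
    obtain ⟨α', hα', h⟩ := tameK_of (b := none) hα hD (Or.inl rfl)
    refine ⟨1 - α', by linarith, fun K hK hK' => ?_⟩
    simp only [dif_pos hK]
    obtain ⟨⟨o, bd, c⟩, -⟩ := h _ (hκ ⟨K, hK⟩ (1 - K) (by linarith))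
    exact MixK.mono ⟨o, bd, fun z => Or.inl (c z)⟩ (by linarith)
  obtain ⟨C, hC⟩ := P144P.plane_C hJ
  obtain ⟨μ₀, hμ₀, -⟩ := H436.free_plane hJ
  have hE := P144W.fam_self hμ₀
  have h00 := P144W.spin_mom0 hJ (fun p hp => (hC p hp).1) fun p hp => (hC p hp).2.2.1
  have pU : ∀ E₀, PlaneFam J 0 (fun _ => 0) (Kc / J) E₀ → LocLim Set.univ E₀ C := fun E₀ h =>
    P.plane_U hJ h N144.C.diaU fun p hp => (hC p hp).1 E₀ h
  have hCD : ∀ D b, P144Y.Nice D b → ∀ p, Good D p →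
      Lim (crit J D b) p (Classical.epsilon (Lim (crit J D b) p)) :=
    fun D b h p hp => Classical.epsilon_spec (h.allLim hJ p hp)
  have hLD : ∀ D b, P144Y.Nice D b →
      LocLim D (crit J D b) fun p => Classical.epsilon (Lim (crit J D b) p) := fun D b h =>
    N144.C.locLim_nice hJ h (hCD D b h)
  refine ⟨C, fun D b p => Classical.epsilon (Lim (crit J D b) p), ⟨_, hE⟩, pU,
    fun p hp => ⟨(hC p hp).1, (hC p hp).2.1, (hC p hp).2.2.1, fun w t hw =>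
      P.plane_cov hJ hE N144.C.diaU N144.C.diaC hp hw t ((hC p hp).1 _ hE) ((hC _ (P.good_im (Set.mapsTo_univ _ _)
        (fun a _ b _ e => mul_left_cancel₀ hw (add_right_cancel e)) hp)).1 _ hE)⟩,
    fun D b hN => ⟨hLD D b hN, fun p hp =>
      ⟨hCD D b hN p hp, fun j => tendsto_nhds_unique (hCD D b hN { p with j := j } hp)
        (hN.jind hJ hp (hCD D b hN p hp) j), fun hm hb => hN.pos hJ hp hm (hCD D b hN p hp) hb,
      fun D' φ hN' d bij => N144.C.cov_nice hJ hN hN' ⟨d, bij⟩ hp (hCD D b hN p hp)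
        (hCD D' b hN' _ (P.good_im bij.mapsTo bij.injOn hp))⟩⟩,
    fun K hK V hV => ?_⟩
  simp only [dif_pos hK]
  replace hκ := hκ ⟨K, hK⟩
  obtain ⟨lam₀, h0, β, Zσ, Zε, a1, a2, a3, a4, a5, a6, h⟩ := h ⟨K, hK⟩ J hJ V hV
  refine ⟨lam₀, h0, β, Zσ, Zε, a1, a2, a3, a4, a5, a6, fun lam hl => ?_⟩
  obtain ⟨h1, h2, h3, ⟨μ, m1, m2, m3⟩, h6, h7⟩ := h lam hl
  have hP := fun p hp => (m3 _ hE).2 p hp _ ((hC p hp).1 _ hE)
  have hM : Mom μ (Zσ lam) C := P144W.spin_mom hJ hV m2 hE (m3 _ hE).1 h2 hP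
    fun p hp => (hC p hp).2.2.1
  have := m1.1
  have hL := P144W.C13.law hJ h00 hM
  have hF := P144W.sepm hJ m2 hE (m3 _ hE).1
  refine ⟨h1, h2, h3, ⟨μ, m1, m2, hP, locLim_diff (pU _ hE) (m3 _ hE).1, hM,
    P144V.lawD hL, Sb.plane hF hL⟩, fun D b hD => ?_⟩
  have tk : ∀ D, IsC1 D ∨ IsPC1 D ∨ IsPolygon D ∨ IsOpen D ∧ Bornology.IsBounded D ∧ Convex ℝ D →
      ∃ α > 0, TameK α (κ ⟨K, hK⟩ α) D := fun D hD => by
    obtain ⟨α, hα, hD⟩ := tm D hD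
    obtain ⟨α', hα', h⟩ := tameK_of (b := none) hα hD (Or.inl rfl)
    exact ⟨α', hα', (h _ (hκ α' hα')).1⟩
  suffices H : LocDiff D (crit J D b) (inDom J lam V (β lam) D b) (Zσ lam) (Zε lam) ∧
      Identity D (crit J D b) (inDom J lam V (β lam) D b) (Zσ lam) (Zε lam) by
    refine ⟨H.1, H.2, fun hN => locLim_diff (hLD D b hN) H.1, fun hb C' hC' => ?_⟩
    have cl : (∃ α > 0, TameK α (κ ⟨K, hK⟩ α) D) ∨ IsLip K D ∨
        MixK K (1 - K) (κ ⟨K, hK⟩ (1 - K)) D := by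
      rcases hD with ⟨hD, -⟩ | ⟨hD, -⟩ | ⟨α, hα, hD, -⟩ | ⟨x, hx, y, hy, e, -⟩
      · exact Or.inl (tk _ hD)
      · exact Or.inr hD
      · exact Or.inl ⟨α, hα, hD⟩
      · exact Or.inl (tk _ (Or.inr (Or.inr (Or.inr
          (e ▸ ⟨rect_open x y, rect_bdd x y, rect_convex x y⟩)))))
    have ob : IsOpen D ∧ Bornology.IsBounded D := by
      rcases cl with ⟨α, -, h⟩ | h | h
      exacts [⟨h.1, h.2.1⟩, ⟨h.1, h.2.1⟩, ⟨h.1, h.2.1⟩]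
    exact ⟨⟨⟨D, ob.1⟩, rfl, Sf.field_of (D := ⟨D, ob.1⟩) hJ ob.2 h2 H.1 (h6 _ b hb cl) hC'⟩,
      Sb.dom hJ ob.2 ob.1 h2 H.1 (h6 _ b hb cl) hC'⟩
  have two : ∀ D b, (IsC1 D ∨ IsPC1 D ∨ IsPolygon D ∨
      IsOpen D ∧ Bornology.IsBounded D ∧ Convex ℝ D) → (∀ k > 0, SignL (Two k) D b) →
      LocDiff D (crit J D b) (inDom J lam V (β lam) D b) (Zσ lam) (Zε lam) ∧
        Identity D (crit J D b) (inDom J lam V (β lam) D b) (Zσ lam) (Zε lam) := by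
    intro D b hD hb
    obtain ⟨α', hα', h⟩ := tk D hD
    exact h7 α' hα' D b (Or.inr (Or.inl ⟨h, hb _ (hκ α' hα')⟩))
  have sl : ∀ c : Bool, SignL (fun _ => True) D (some fun _ _ => c) := by
    rintro (_ | _)
    · exact ⟨∅, fun z _ => ⟨1, one_pos, Or.inr (Or.inl (by simp))⟩, by rw [bcOf_empty]⟩
    · exact ⟨Set.univ, fun z _ => ⟨1, one_pos, Or.inl (by simp)⟩, by rw [bcOf_univ]⟩
  rcases hD with ⟨hD, hb⟩ | ⟨hD | hD, hb⟩ | ⟨α, hα, hD, hb | hb⟩ | ⟨x, hx, y, hy, rfl, rfl⟩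
  · rcases or_assoc.2 hb with hb | hb
    · obtain ⟨α, hα, hD⟩ := tm D hD
      obtain ⟨α', hα', h⟩ := tameK_of hα hD (hb.elim (fun h => h.signBC D) id)
      exact h7 α' hα' D b (Or.inl ⟨Or.inl (h _ (hκ α' hα')).1, (h _ (hκ α' hα')).2⟩)
    · exact two D b hD hb
  · rcases hb with hb | hb
    · exact h7 1 one_pos D b (Or.inl ⟨Or.inr hD, hb.signK _ _ D⟩)
    · exact h7 1 one_pos D b (Or.inr (Or.inr (Or.inl ⟨hD, hb⟩)))
  · refine h7 1 one_pos D b (Or.inr (Or.inr (Or.inr ⟨hD, ?_⟩)))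
    rcases hb with (rfl | rfl | rfl) | hb
    exacts [Or.inl rfl, Or.inr (sl _), Or.inr (sl _), Or.inr hb]
  · exact h7 α hα D b (Or.inl ⟨Or.inl hD, hb⟩)
  · exact h7 α hα D b (Or.inr (Or.inl ⟨hD, hb⟩))
  · exact two _ _ (Or.inr (Or.inr (Or.inr ⟨rect_open x y, rect_bdd x y, rect_convex x y⟩)))
      fun k hk => ⟨_, rect_pwl hx hy hk.le, rfl⟩

end Vale.Agent.N144.Lat
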